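import Vale.Agent.P011.D4W.H7.LeDef

/-!
Block D4W: the reduction of an arbitrary frame to the frame `(i, l, j)`.
-/

open Module NumberField

set_option linter.unusedSectionVars false

namespace Vale.Agent.P011.D4W.H7

open Vale.Agent.P011.Arith Vale.Agent.P011.MPQ Vale.Agent.P011.D4 Vale.Agent.P011.D4.Oct
  Vale.Agent.P011.D4.Em Vale.Agent.P011.E6 Vale.Agent.P011.D4X Vale.Agent.P011.D4X.H691
  Vale.Agent.P011.D4Y
open Vale.Agent.P011.D4.B.FI (fixI mem_fixI)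

section trip

variable {F : Type} [Field F] {a b c : Fˣ}

/-- The frame `(i, l, j)`. -/
theorem trip_swap : Trip a c b (gi : Oct a b c) gl gj where
  si := by ext <;> simp [gi]
  sj := by ext <;> simp [gl]
  sl := by ext <;> simp [gj]
  ii := by ext <;> simp [gi]
  jj := by ext <;> simp [gl]
  ll := by ext <;> simp [gj]
  ij := by simp [dot, gi, gl]
  il := by simp [dot, gi, gj]
  jl := by simp [dot, gj, gl]
  ijl := by simp [dot, gi, gj, gl]

/-- The frame `(i, j, u l)`. -/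
theorem trip_ul {u : Qt a b} {b₁ : Fˣ} (h : (b₁ : F) = c * nrd u) :
    Trip a b b₁ (gi : Oct a b c) gj ⟨0, u⟩ where
  si := (H24.trip_u h).si
  sj := (H24.trip_u h).sl
  sl := (H24.trip_u h).sj
  ii := (H24.trip_u h).ii
  jj := (H24.trip_u h).ll
  ll := (H24.trip_u h).jj
  ij := (H24.trip_u h).il
  il := (H24.trip_u h).ij
  jl := by simp [dot, gj]
  ijl := by simp [dot, gi, gj]

end trip

section comp

variable {k E : Type} [Field k] [Field E] [Algebra k E] [NeZero (2 : k)] [NeZero (2 : E)]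
  {a b c b₁ : kˣ}

/-- The composition of the two changes of coordinates. -/
theorem comp_swap {u : Qt a b} (h : (b₁ : k) = c * nrd u) (x : OctL E a b₁ b) :
    tripO E (H24.trip_u h : Trip a b₁ b (gi : Oct a b c) ⟨0, u⟩ gj) x =
      tripO E (trip_ul h : Trip a b b₁ (gi : Oct a b c) gj ⟨0, u⟩)
        (tripO E (trip_swap : Trip a b₁ b (gi : Oct a b b₁) gl gj) x) := by
  let Ψ : OctL E a b₁ b ≃ₗ[E] OctL E a b c :=
    (tripO E (trip_swap : Trip a b₁ b (gi : Oct a b b₁) gl gj)).trans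
      (tripO E (trip_ul h : Trip a b b₁ (gi : Oct a b c) gj ⟨0, u⟩))
  have hΨ : ∀ x y, Ψ (x * y) = Ψ x * Ψ y := fun x y => by
    change tripO E _ (tripO E _ (x * y)) = _
    rw [tripO_mul, tripO_mul]
    rfl
  have e0 : ∀ y : Oct a b₁ b, Ψ (oup E y) = oup E (emb gi gj ⟨0, u⟩
      (emb gi gl gj y : Oct a b b₁)) := fun y => by
    change tripO E _ (tripO E _ (oup E y)) = _
    rw [tripO_oup, tripO_oup]
  have ei : Ψ gi = oup E gi := by
    rw [← oup_gi, e0, B.emb_gi, B.emb_gi]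
  have ej : Ψ gj = oup E ⟨0, u⟩ := by
    rw [← oup_gj, e0, B.emb_gj, B.emb_gl]
  have el : Ψ gl = oup E gj := by
    rw [← oup_gl, e0, B.emb_gl, B.emb_gj]
  have h3 := Rl.hom_emb hΨ x
  rw [ei, ej, el] at h3
  rw [tripO_apply]
  exact h3.symm

end comp

section move

variable {k L E : Type} [Field k] [NumberField k] [Field L] [NumberField L] [Field E]
  [Algebra k L] [Algebra k E] [Algebra L E]
  [IsScalarTower k L E] [NeZero (2 : E)] {ρ σ ι : E ≃ₐ[k] E} {α : E}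
  {a b c : kˣ} {q : Lˣ}

/-- The congruence is transported along an element of the finite residual. -/
theorem le_move (H : HyI ρ σ ι α a b c q) {b' c' b'' c'' : kˣ} {j l j'' l'' : Oct a b c}
    (h : Trip a b' c' gi j l)
    (h'' : Trip a b'' c'' gi j'' l'') {n : OctL E a b c ≃ₗ[E] OctL E a b c}
    (hn : n ∈ RsI ρ σ ι α a b c q) (hc : n * tQ E h * n⁻¹ = tQ E h'')
    (hle : ∀ {z : ATI ρ σ ι α a b c q}, z ∈ stabI ρ σ ι α q h'' → kapI z ∈ PosC k L a →
      z ∈ H.NA ⊔ stab0I ρ σ ι α a b c q)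
    {z : ATI ρ σ ι α a b c q} (hz : z ∈ stabI ρ σ ι α q h) (hP : kapI z ∈ PosC k L a) :
    z ∈ H.NA ⊔ stab0I ρ σ ι α a b c q := by
  obtain ⟨nA, rfl⟩ : ∃ nA : ATI ρ σ ι α a b c q, nA.1 = n :=
    ⟨⟨n, GTI_le_ATI (RsI_le hn)⟩, rfl⟩
  have hnN : nA ∈ H.NA := ⟨1, nA.1, hn, fun x => by
    rw [Units.val_one, map_one, map_one, one_smul]⟩
  have hkn : kapI nA = 1 := kapI_of_GTI (RsI_le hn)
  have h1 : nA * z * nA⁻¹ ∈ H.NA ⊔ stab0I ρ σ ι α a b c q := by
    apply hle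
    · change nA.1 * z.1 * nA.1⁻¹ * tQ E h'' = tQ E h'' * (nA.1 * z.1 * nA.1⁻¹)
      have h1 : z.1 * tQ E h = tQ E h * z.1 := hz
      rw [← hc]
      calc nA.1 * z.1 * nA.1⁻¹ * (nA.1 * tQ E h * nA.1⁻¹)
          = nA.1 * (z.1 * tQ E h) * nA.1⁻¹ := by group
        _ = nA.1 * (tQ E h * z.1) * nA.1⁻¹ := by rw [h1]
        _ = nA.1 * tQ E h * nA.1⁻¹ * (nA.1 * z.1 * nA.1⁻¹) := by group
    · rw [kapI_mul, kapI_mul, kapI_inv, hkn, inv_one, one_mul, mul_one]
      exact hP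
  have h2 : z = nA⁻¹ * (nA * z * nA⁻¹) * nA := by group
  rw [h2]
  exact Subgroup.mul_mem _ (Subgroup.mul_mem _ (Subgroup.mem_sup_left (H.NA.inv_mem hnN)) h1)
    (Subgroup.mem_sup_left hnN)

/-- The congruence for the frame `(i, l, j)`. -/
def LeSwap (k L : Type) [Field k] [NumberField k] [Field L] [NumberField L] [Algebra k L] :
    Prop :=
  ∀ (E : Type) [Field E] [Algebra k E] [Algebra L E] [IsScalarTower k L E] [NeZero (2 : E)]
    (ρ σ ι : E ≃ₐ[k] E) (α : E) (a b c : kˣ) (q : Lˣ) (H : HyI ρ σ ι α a b c q),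
    (∀ τ : k →+* ℝ, τ a < 0 → τ b < 0 ∧ τ c < 0) →
    ∀ {z : ATI ρ σ ι α a b c q},
      z ∈ stabI ρ σ ι α q (trip_swap : Trip a c b (gi : Oct a b c) gl gj) →
      kapI z ∈ PosC k L a → z ∈ H.NA ⊔ stab0I ρ σ ι α a b c q

/-- **The reduction to the frame `(i, l, j)`.** -/
theorem le_of_swap (hsw : LeSwap k L) : LeAll k L := by
  intro E _ _ _ _ _ ρ σ ι α a b c q H hX b' c' j l h z hz hP
  have h2k : NeZero (2 : k) := ⟨two_ne_zero⟩
  have hneg : ∀ τ : k →+* ℝ, τ a < 0 → τ b' < 0 := fun τ hτ => by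
    obtain ⟨h1, h2⟩ := hX τ hτ
    exact ((DefAt.of_neg (τ := τ) (a := a) (b := b) (c := c) hτ h1 h2).trip h).neg.2.1
  obtain ⟨u, hu⟩ := exists_nrd (a := a) (b := b) (b' / c) (fun φ h1 _ => by
    rw [Units.val_div_eq_div_val, map_div₀]
    exact div_pos_of_neg_of_neg (hneg φ h1) (hX φ h1).2)
  have hb : (b' : k) = c * nrd u := by
    rw [hu, Units.val_div_eq_div_val]
    have := c.ne_zero
    field_simp
  have t1 : Trip a b' b (gi : Oct a b c) ⟨0, u⟩ gj := H24.trip_u hb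
  have t2 : Trip a b b' (gi : Oct a b c) gj ⟨0, u⟩ := trip_ul hb
  -- the automorphism
  obtain ⟨n, hn, -⟩ := D4X.H369.exists_n H.hdiv h.sj t1.sj h.ij t1.ij (by
    rw [B.norm_of_sq t1.sj t1.jj, B.norm_of_sq h.sj h.jj])
  have hf : n.1.1 gi = gi := mem_fixI.1 n.2
  have t1' : Trip a b' b (gi : Oct a b c) (n.1.1 j) gj := by rw [hn]; exact t1
  have hc := D4X.H370.tQ_conj_mul (E := E) hf h t1'
  have hc' : extE E n.1.1 * tQ E h * (extE E n.1.1)⁻¹ = tQ E t1 := by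
    rw [hc]
    congr 1
  refine le_move H h t1 (D4Y.H370.extE_mem_RsI H hf) hc' ?_ hz hP
  -- the change of model
  intro z hz hP
  have H' : HyI ρ σ ι α a b b' q := hyTripI H t2
  obtain ⟨z0, hz0, rfl⟩ := exists_of_mem_stabI t1 hz
  rw [cjAI_comp t2 (trip_swap : Trip a b' b (gi : Oct a b b') gl gj) t1
    (fun x => comp_swap hb x) z0]
  rw [kapI_cjAI] at hP
  have h1 := hsw E ρ σ ι α a b b' q H' (fun τ hτ => ⟨(hX τ hτ).1, hneg τ hτ⟩)
    (z := cjAI ρ σ ι α q (trip_swap : Trip a b' b (gi : Oct a b b') gl gj) z0)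
    ((cjAI_mem_stabI _).2 hz0) (by rw [kapI_cjAI]; exact hP)
  have key : H'.NA ⊔ stab0I ρ σ ι α a b b' q ≤
      (H.NA ⊔ stab0I ρ σ ι α a b c q).comap
        (cjAI ρ σ ι α q t2 : ATI ρ σ ι α a b b' q →* ATI ρ σ ι α a b c q) := by
    refine sup_le (fun y hy => ?_) (fun y hy => ?_)
    · exact Subgroup.mem_sup_left (cjAI_isNI t2 hy)
    · refine Subgroup.mem_sup_right ?_
      have h3 : cjAI ρ σ ι α q t2 y ∈ stabI ρ σ ι α q t2 := (cjAI_mem_stabI t2).2 hy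
      have h4 : tQ E t2 = t0 E a b c := D4X.H369.tQ_t0 (two_ne_zero) (p := 1) (r := 0)
        (by rfl) (by norm_num) t2
      intro x
      have h5 : (cjAI ρ σ ι α q t2 y).1 * tQ E t2 = tQ E t2 * (cjAI ρ σ ι α q t2 y).1 := h3
      rw [h4] at h5
      exact congrArg (fun f : OctL E a b c ≃ₗ[E] OctL E a b c => f x) h5
  exact key h1

end move

end Vale.Agent.P011.D4W.H7
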