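import Vale.Agent.P011.D4W.Defs
import Vale.Agent.P011.D4Y.H63.Disc
import Vale.Agent.P011.D4Y.H64.Even
import Vale.Agent.P011.D4Y.H63.RamOdd
import Vale.Agent.P011.Pow.CentT

/-!
Block D4W: quadratic polynomials `X² - u X + s` with good discriminants, without a condition at the
primes of even local degree.
-/

open NumberField IsDedekindDomain Topology Filter

namespace Vale.Agent.P011.D4W.H7

open Vale.Agent.P011.Arith Vale.Agent.P011.D4 Vale.Agent.P011.MPQ Vale.Agent.P011.D4X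
  Vale.Agent.P011.D4Y

section loc

variable {F : Type} [Field F] [NumberField F]

/-- A quadratic polynomial with constant term `s` whose discriminant has a given class. -/
theorem exists_disc_class (v : HeightOneSpectrum (𝓞 F)) {s x : Fˣ}
    (hx : x ∈ NF s ⊔ LS (v.valuation F)) (hx' : x ∉ LS (v.valuation F)) :
    ∃ (u : F) (D : Fˣ), (D : F) = u ^ 2 - 4 * s ∧ D * x ∈ LS (v.valuation F) := by
  obtain ⟨n, ⟨p, r, hn⟩, l, hl, rfl⟩ := Subgroup.mem_sup.1 hx
  have hr : r ≠ 0 := by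
    rintro rfl
    apply hx'
    refine mul_mem (Sq_le_LS _ ?_) hl
    rw [mem_Sq_iff]
    exact ⟨p, by rw [hn]; ring⟩
  have h2 : (2 : F) ≠ 0 := two_ne_zero
  refine ⟨2 * p / r, n * (Units.mk0 (2 / r) (div_ne_zero h2 hr)) ^ 2, ?_, ?_⟩
  · rw [Units.val_mul, Units.val_pow_eq_pow_val, Units.val_mk0, hn]
    field_simp
    ring
  · have e : n * (Units.mk0 (2 / r) (div_ne_zero h2 hr)) ^ 2 * (n * l) =
        (n * Units.mk0 (2 / r) (div_ne_zero h2 hr)) ^ 2 * l := by
      rw [mul_pow, pow_two n]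
      exact (mul_mul_mul_comm _ _ _ _).trans (by
        rw [mul_assoc (n * n), ← mul_assoc, mul_assoc])
    rw [e]
    exact mul_mem (Sq_le_LS _ ⟨_, rfl⟩) hl

/-- Global discriminants with prescribed local behaviour. -/
theorem exists_gdiscW {n : ℕ} (s a : Fˣ) (t : Fin (n + 1) → Fˣ) (ht : ∀ i, ¬ IsSquare (t i : F))
    (hs1 : s ≠ 1) (hs : ∀ τ : F →+* ℝ, τ a < 0 → 0 < τ s) {S : Set (HeightOneSpectrum (𝓞 F))}
    (hS : S.Finite) (x : HeightOneSpectrum (𝓞 F) → Fˣ)
    (hx : ∀ v ∈ S, ∃ (u : F) (D : Fˣ), (D : F) = u ^ 2 - 4 * s ∧ D * x v ∈ LS (v.valuation F)) :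
    ∃ (u : F) (D : Fˣ), (D : F) = u ^ 2 - 4 * s ∧
      (∀ v ∈ S, D * x v ∈ LS (v.valuation F)) ∧ (∀ τ : F →+* ℝ, τ D < 0 ↔ τ a < 0) ∧
      ∀ i, ∀ r : F, (D : F) ≠ t i * r ^ 2 := by
  classical
  choose v1 hv1S hv1 using fun i => exists_nonsplit (t i) (ht i) S hS
  -- the local data
  have key : ∀ p : Pl F, ∃ (u : F) (D : Fˣ), (D : F) = u ^ 2 - 4 * s ∧
      (∀ v, p = Sum.inl v → (v ∈ Set.range v1 → D ∈ LS (v.valuation F)) ∧
        (v ∈ S → D * x v ∈ LS (v.valuation F))) ∧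
      ∀ τ : F →+* ℝ, p = Sum.inr τ → (τ D < 0 ↔ τ a < 0) := by
    intro p
    rcases p with v | τ
    · by_cases hv : v ∈ S
      · obtain ⟨u, D, h1, h2⟩ := hx v hv
        refine ⟨u, D, h1, ?_, ?_⟩
        · intro v' hv'
          rw [← Sum.inl.inj hv']
          refine ⟨fun h => ?_, fun _ => h2⟩
          obtain ⟨i, rfl⟩ := h
          exact absurd hv (hv1S i)
        · intro τ h
          exact absurd h (by simp)
      · have h1 : (1 : F) - s ≠ 0 := by
          intro h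
          apply hs1
          apply Units.ext
          rw [Units.val_one]
          exact (sub_eq_zero.1 h).symm
        refine ⟨1 + s, (Units.mk0 _ h1) ^ 2, ?_, ?_, ?_⟩
        · rw [Units.val_pow_eq_pow_val, Units.val_mk0]
          ring
        · intro v' hv'
          refine ⟨fun _ => Sq_le_LS _ ⟨_, rfl⟩, fun h => absurd ?_ hv⟩
          rw [Sum.inl.inj hv']
          exact h
        · intro τ h
          exact absurd h (by simp)
    · have hτs : τ (s : F) ≠ 0 := (map_ne_zero τ).mpr s.ne_zero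
      by_cases hτ : τ a < 0
      · refine ⟨0, Units.mk0 (-(4 * (s : F))) (neg_ne_zero.2 (mul_ne_zero (by norm_num)
          s.ne_zero)), ?_, ?_, ?_⟩
        · rw [Units.val_mk0]; ring
        · intro v h
          exact absurd h (by simp)
        · intro τ' h
          rw [← Sum.inr.inj h, Units.val_mk0, map_neg, map_mul, map_ofNat]
          have := hs τ hτ
          exact ⟨fun _ => hτ, fun _ => by linarith⟩
      · have h1 : 0 < τ (4 * (1 + s + s ^ 2) : F) := by
          rw [map_mul, map_ofNat, map_add, map_add, map_one, map_pow]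
          nlinarith [sq_nonneg (τ (s : F) + 1 / 2)]
        have h2 : (4 * (1 + s + s ^ 2) : F) ≠ 0 := by
          intro h
          rw [h, map_zero] at h1
          exact lt_irrefl _ h1
        refine ⟨2 + 2 * s, Units.mk0 _ h2, ?_, ?_, ?_⟩
        · rw [Units.val_mk0]; ring
        · intro v h
          exact absurd h (by simp)
        · intro τ' h
          rw [← Sum.inr.inj h, Units.val_mk0]
          exact ⟨fun h => absurd h1 (not_lt.2 h.le), fun h => absurd h hτ⟩
  choose u0 D0 hD0 hfin hreal using key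
  -- closeness
  choose δ hδ hδ' using fun p : Pl F => LSp_of_near p (D0 p)
  have hpos : ∀ p : Pl F, 0 < min (δ p) (plAbv p (D0 p : F)) := fun p =>
    lt_min (hδ p) ((plAbv p).pos (D0 p).ne_zero)
  choose η hη hη' using fun p : Pl F => exists_delta (ι := Unit) (plAbv p)
    (fun X : Unit → F => (X ()) ^ 2 - 4 * s)
    (by
      let _ := topA (plAbv p)
      have := topA_ring (plAbv p)
      fun_prop) (fun _ => u0 p) (hpos p)
  have hUf : (S ∪ Set.range v1).Finite := hS.union (Set.finite_range v1)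
  obtain ⟨u, hu⟩ := approx (SP (S ∪ Set.range v1)) (SP_finite hUf) u0 η hη
  have hnear : ∀ p ∈ SP (S ∪ Set.range v1), plAbv p (u ^ 2 - 4 * s - D0 p) <
      min (δ p) (plAbv p (D0 p : F)) := by
    intro p hp
    have h1 := hη' p (fun _ => u) (fun _ => hu p hp)
    change plAbv p (u ^ 2 - 4 * s - (u0 p ^ 2 - 4 * s)) < _ at h1
    rw [← hD0 p] at h1
    exact h1
  have hne : u ^ 2 - 4 * (s : F) ≠ 0 := by
    intro h
    have h1 := hnear _ (inl_mem_SP.mpr (Or.inr ⟨0, rfl⟩) : (Sum.inl (v1 0) : Pl F) ∈ _)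
    rw [h, zero_sub, AbsoluteValue.map_neg] at h1
    exact absurd (lt_of_lt_of_le h1 (min_le_right _ _)) (lt_irrefl _)
  obtain ⟨D, hD⟩ : ∃ D : Fˣ, (D : F) = u ^ 2 - 4 * s := ⟨Units.mk0 _ hne, rfl⟩
  have hcl : ∀ p ∈ SP (S ∪ Set.range v1), D * D0 p ∈ LSp p := by
    intro p hp
    apply hδ' p
    rw [hD]
    exact lt_of_lt_of_le (hnear p hp) (min_le_left _ _)
  refine ⟨u, D, hD, ?_, ?_, ?_⟩
  · intro v hv
    have h1 : D * D0 (Sum.inl v) ∈ LS (v.valuation F) := hcl _ (inl_mem_SP.mpr (Or.inl hv))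
    have h2 := (hfin (Sum.inl v) v rfl).2 hv
    have h3 : D0 (Sum.inl v) ^ 2 ∈ LS (v.valuation F) := Sq_le_LS _ ⟨_, rfl⟩
    have e : D * x v = D * D0 (Sum.inl v) * (D0 (Sum.inl v) * x v) *
        (D0 (Sum.inl v) ^ 2)⁻¹ := by
      rw [eq_mul_inv_iff_mul_eq, pow_two]
      exact (mul_mul_mul_comm _ _ _ _).trans (by
        rw [mul_comm (x v)])
    rw [e]
    exact mul_mem (mul_mem h1 h2) (inv_mem h3)
  · intro τ
    have h1 : 0 < τ ((D * D0 (Sum.inr τ) : Fˣ) : F) := hcl _ inr_mem_SP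
    rw [Units.val_mul, map_mul] at h1
    rw [← hreal _ τ rfl]
    rcases mul_pos_iff.1 h1 with ⟨h2, h3⟩ | ⟨h2, h3⟩
    · exact ⟨fun h => absurd h2 (not_lt.2 h.le), fun h => absurd h3 (not_lt.2 h.le)⟩
    · exact ⟨fun _ => h3, fun _ => h2⟩
  · intro i r hr
    have h1 : D * D0 (Sum.inl (v1 i)) ∈ LS ((v1 i).valuation F) :=
      hcl _ (inl_mem_SP.mpr (Or.inr ⟨i, rfl⟩))
    have h2 : D ∈ LS ((v1 i).valuation F) :=
      (Subgroup.mul_mem_cancel_right _ ((hfin _ (v1 i) rfl).1 ⟨i, rfl⟩)).1 h1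
    have hr0 : r ≠ 0 := by
      rintro rfl
      apply D.ne_zero
      rw [hr]; ring
    have h3 : D = t i * (Units.mk0 r hr0) ^ 2 := by
      apply Units.ext
      rw [hr, Units.val_mul, Units.val_pow_eq_pow_val, Units.val_mk0]
    rw [h3] at h2
    exact hv1 i ((Subgroup.mul_mem_cancel_right _ (Sq_le_LS _ ⟨_, rfl⟩)).1 h2)

end loc

section good

variable {k L : Type} [Field k] [NumberField k] [Field L] [NumberField L] [Algebra k L]

/-- The condition on `s` at the primes of even local degree. -/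
def GoodS (a : kˣ) (q : Lˣ) (s : kˣ) : Prop :=
  ∀ (v : HeightOneSpectrum (𝓞 k)) (w : HeightOneSpectrum (𝓞 L)), Bad a q v w →
    s ∈ LS (v.valuation k) ∨ ∃ δ : kˣ, up L δ ∈ LS (w.valuation L) ∧
      δ ∉ NF s ⊔ LS (v.valuation k)

/-- The local discriminants. -/
theorem exists_locS (h3 : Module.finrank k L = 3) {a : kˣ} {q : Lˣ} {s : kˣ}
    (hs : GoodS a q s) (v : HeightOneSpectrum (𝓞 k)) :
    ∃ x : kˣ, (∃ (u : k) (D : kˣ), (D : k) = u ^ 2 - 4 * s ∧ D * x ∈ LS (v.valuation k)) ∧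
      x ∉ LS (v.valuation k) ∧ ∀ w, Bad a q v w → up L x ∉ LS (w.valuation L) := by
  by_cases h : ∃ w, Bad a q v w
  · obtain ⟨w, hw⟩ := h
    have haL : up L a ∉ LS (w.valuation L) := by
      intro ha
      apply hw.2.1
      rw [NF_sup_of_mem' _ ha]
      exact Subgroup.mem_top _
    have hun : ∀ w', Bad a q v w' → w' = w := by
      intro w' hw'
      by_contra hne
      exact hw'.2.2 (odd_of_other h3 hw'.1 hw.1 hne hw.2.2)
    have hx : ∀ x : kˣ, up L x ∉ LS (w.valuation L) → x ∈ NF s ⊔ LS (v.valuation k) →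
        ∃ x : kˣ, (∃ (u : k) (D : kˣ), (D : k) = u ^ 2 - 4 * s ∧ D * x ∈ LS (v.valuation k)) ∧
      x ∉ LS (v.valuation k) ∧ ∀ w, Bad a q v w → up L x ∉ LS (w.valuation L) := by
      intro x hx1 hx2
      have hx3 : x ∉ LS (v.valuation k) := fun h => hx1 (LS_map hw.1 h)
      refine ⟨x, exists_disc_class v hx2 hx3, hx3, fun w' hw' => ?_⟩
      rw [hun w' hw']
      exact hx1
    rcases hs v w hw with h1 | ⟨δ, hδ1, hδ2⟩
    · refine hx a haL ?_
      rw [NF_sup_of_mem' _ h1]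
      exact Subgroup.mem_top _
    · have hs' : s ∉ LS (v.valuation k) := by
        intro h1
        apply hδ2
        rw [NF_sup_of_mem' _ h1]
        exact Subgroup.mem_top _
      by_cases ha : a ∈ NF s ⊔ LS (v.valuation k)
      · exact hx a haL ha
      · refine hx (a * δ) (fun h => haL ?_) ?_
        · have e : up L (a * δ) = up L a * up L δ := map_mul _ _ _
          rw [e] at h
          exact (Subgroup.mul_mem_cancel_right _ hδ1).1 h
        · rw [Subgroup.mul_mem_iff_of_index_two (local_index_two v s hs')]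
          exact ⟨fun h => absurd h ha, fun h => absurd h hδ2⟩
  · obtain ⟨u, D, h1, h2⟩ := exists_disc v s
    exact ⟨D, ⟨u, D, h1, Sq_le_LS _ ⟨D, (pow_two D)⟩⟩, h2, fun w hw => absurd ⟨w, hw⟩ h⟩

/-- A quadratic polynomial over `k` with constant term `s` whose discriminant is good. -/
theorem exists_gooduW {n : ℕ} (h3 : Module.finrank k L = 3) {a b : kˣ} {q : Lˣ}
    (t : Fin (n + 1) → kˣ) (ht : ∀ i, ¬ IsSquare (t i : k)) {s : kˣ} (hs1 : s ≠ 1)
    (hs : ∀ τ : k →+* ℝ, τ a < 0 → 0 < τ s) (hsG : GoodS a q s) :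
    ∃ (u : k) (D : kˣ), (D : k) = u ^ 2 - 4 * s ∧ GoodD a b q (D : k) ∧
      (∀ τ : k →+* ℝ, τ D < 0 ↔ τ a < 0) ∧ ∀ i, ∀ r : k, (D : k) ≠ t i * r ^ 2 := by
  choose below hbelow using fun w : HeightOneSpectrum (𝓞 L) => Sch.exists_below (F := k) w
  obtain ⟨R, hR⟩ : ∃ R : Set (HeightOneSpectrum (𝓞 L)), R = {w | Ram (up L a) q w} ∪
    {w | Ram (up L a) (q * up L b) w} := ⟨_, rfl⟩
  have hRf : R.Finite := by
    rw [hR]
    exact (ram_finite _ _).union (ram_finite _ _)
  obtain ⟨S, hS⟩ : ∃ S : Set (HeightOneSpectrum (𝓞 k)), S = {v | Ram a b v} ∪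
    below '' R := ⟨_, rfl⟩
  have hSf : S.Finite := by
    rw [hS]
    exact (ram_finite _ _).union (hRf.image _)
  choose x hx1 hx2 hx3 using exists_locS h3 hsG
  obtain ⟨u, D, h1, h2, h4, h5⟩ := exists_gdiscW s a t ht hs1 hs hSf x fun v _ => hx1 v
  have h7 : ∀ v ∈ S, D ∉ LS (v.valuation k) := fun v hv h =>
    hx2 v ((Subgroup.mul_mem_cancel_left _ h).1 (h2 v hv))
  have h6 : ∀ w ∈ R, up L D ∉ LS (w.valuation L) := by
    intro w hw h
    have hvS : below w ∈ S := by rw [hS]; exact Or.inr ⟨w, hw, rfl⟩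
    by_cases ho : OddP w (below w)
    · exact h7 _ hvS (ho D h)
    · have hq : Ram (up L a) q w := by
        rw [hR] at hw
        rcases hw with hw | hw
        · exact hw
        · exact ram_of_even (hbelow w) ho hw
      refine hx3 (below w) w ⟨hbelow w, hq, ho⟩ ?_
      have h8 := LS_map (hbelow w) (h2 _ hvS)
      have e : up L (D * x (below w)) = up L D * up L (x (below w)) := map_mul _ _ _
      change up L (D * x (below w)) ∈ _ at h8
      rw [e] at h8
      exact (Subgroup.mul_mem_cancel_left _ h).1 h8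
  refine ⟨u, D, h1, goodD_of (fun v hv => h7 v (by rw [hS]; exact Or.inl hv))
    (fun w hw => h6 w (by rw [hR]; exact Or.inl hw))
    (fun w hw => h6 w (by rw [hR]; exact Or.inr hw)) (fun τ h => (h4 τ).mpr h)
    (fun τ h => (h4 τ).mp h), h4, h5⟩

/-- Every `s` is a product of two elements satisfying the condition. -/
theorem exists_fac (h3 : Module.finrank k L = 3) (a : kˣ) (q : Lˣ) (s : kˣ) :
    ∃ s1 s2 : kˣ, s = s1 * s2 ∧ GoodS a q s1 ∧ GoodS a q s2 ∧ ∀ τ : k →+* ℝ, 0 < τ s1 := by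
  have hfin : {v : HeightOneSpectrum (𝓞 k) | ∃ w, Bad a q v w}.Finite := by
    refine ((Pow.below_finite (F := k) (ram_finite (up L a) q))).subset ?_
    rintro v ⟨w, hw⟩
    exact ⟨w, hw.2.1, hw.1⟩
  have key : ∀ v : HeightOneSpectrum (𝓞 k), ∃ g : kˣ, ∀ w, Bad a q v w →
      (g ∈ LS (v.valuation k) ∨ ∃ δ : kˣ, up L δ ∈ LS (w.valuation L) ∧
        δ ∉ NF g ⊔ LS (v.valuation k)) ∧ ∃ δ : kˣ, up L δ ∈ LS (w.valuation L) ∧
        δ ∉ NF (s / g) ⊔ LS (v.valuation k) := by
    intro v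
    by_cases h : ∃ w, Bad a q v w
    · obtain ⟨w, hw⟩ := h
      have hun : ∀ w', Bad a q v w' → w' = w := by
        intro w' hw'
        by_contra hne
        exact hw'.2.2 (odd_of_other h3 hw'.1 hw.1 hne hw.2.2)
      have hne := hw.2.2
      unfold OddP at hne
      push Not at hne
      obtain ⟨δ, hδ1, hδ2⟩ := hne
      by_cases hs : δ ∈ NF s ⊔ LS (v.valuation k)
      · have h1 := NF_sup_ne_top δ (Sum.inl v) hδ2
        obtain ⟨g, hg⟩ : ∃ g : kˣ, g ∉ NF δ ⊔ LS (v.valuation k) := by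
          by_contra hcon
          push Not at hcon
          exact h1 ((Subgroup.eq_top_iff' _).mpr hcon)
        refine ⟨g, fun w' hw' => ?_⟩
        rw [hun w' hw']
        refine ⟨Or.inr ⟨δ, hδ1, fun h => hg (mem_symm _ _ h)⟩, δ, hδ1, fun h => hg ?_⟩
        have h4 := mem_symm _ _ h
        have h5 := mem_symm _ _ hs
        have e : g = s * (s / g)⁻¹ := by
          rw [inv_div, mul_div_cancel]
        rw [e]
        exact mul_mem h5 (inv_mem h4)
      · refine ⟨1, fun w' hw' => ?_⟩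
        rw [hun w' hw']
        refine ⟨Or.inl (one_mem _), δ, hδ1, ?_⟩
        rw [div_one]
        exact hs
    · exact ⟨1, fun w hw => absurd ⟨w, hw⟩ h⟩
  choose g hg using key
  obtain ⟨f, hf⟩ := weak_approx' hfin (Sum.elim g fun _ => 1)
  have hfv : ∀ v w, Bad a q v w → f / g v ∈ LS (v.valuation k) := fun v w hw =>
    hf (Sum.inl v) (inl_mem_SP.mpr ⟨w, hw⟩)
  -- change of the class
  have hch : ∀ (v : HeightOneSpectrum (𝓞 k)) {x y δ : kˣ}, x / y ∈ LS (v.valuation k) →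
      δ ∉ NF y ⊔ LS (v.valuation k) → δ ∉ NF x ⊔ LS (v.valuation k) := by
    intro v x y δ h1 h2 h3
    apply h2
    have h4 := mem_symm _ _ h3
    apply mem_symm
    have e : y = x * (x / y)⁻¹ := by rw [inv_div, mul_div_cancel]
    rw [e]
    exact mul_mem h4 (Subgroup.mem_sup_right (inv_mem h1))
  refine ⟨f, s / f, by rw [mul_div_cancel], ?_, ?_, ?_⟩
  · intro v w hw
    rcases (hg v w hw).1 with h | ⟨δ, h1, h2⟩
    · left
      have h4 := mul_mem (hfv v w hw) h
      rwa [div_mul_cancel] at h4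
    · exact Or.inr ⟨δ, h1, hch v (hfv v w hw) h2⟩
  · intro v w hw
    obtain ⟨δ, h1, h2⟩ := (hg v w hw).2
    refine Or.inr ⟨δ, h1, hch v ?_ h2⟩
    have e : s / f / (s / g v) = (f / g v)⁻¹ := by
      rw [inv_div, div_div_div_cancel_left]
    rw [e]
    exact inv_mem (hfv v w hw)
  · intro τ
    have h := hf (Sum.inr τ) inr_mem_SP
    rw [Sum.elim_inr, div_one] at h
    exact h

end good

end Vale.Agent.P011.D4W.H7
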