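import Vale.Agent.P011.D4W.H7.Fin
import Vale.Agent.P011.D4W.H7.LeDef

/-!
Block D4W: the final theorem for the group of permutations.
-/

open Module NumberField

namespace Vale.Agent.P011.D4W.H7

open Vale.Agent.P011.MPQ Vale.Agent.P011.D4 Vale.Agent.P011.D4.Oct Vale.Agent.P011.D4H
  Vale.Agent.P011.D4T

/-- **Trialitarian groups of noncyclic cubic extensions with nontrivial Tits class** have no proper
subgroup of finite index, from the short elements and the congruence of the centralisers. -/
theorem ti_noIndex {k L E : Type} [Field k] [NumberField k] [Field L] [NumberField L] [Field E]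
    [Algebra k L] [Algebra k E] [Algebra L E] [IsScalarTower k L E] (hS : ShortAll k L)
    (hT : LeAll k L) {ρ σ ι : E ≃ₐ[k] E} {α : E}
    {a b c : kˣ} {q : Lˣ} (H : IsDataIR ρ σ ι α a b c q) :
    NoIndex (D4I.TI ρ σ ι α (algebraMap L E (q : L)) a b c) := by
  have hc : CharZero E := charZero_of_injective_algebraMap (algebraMap k E).injective
  have h2 : NeZero (2 : E) := ⟨two_ne_zero⟩
  have hfin := H.finite
  have hE : NumberField E := NumberField.of_module_finite L E
  exact (openAt_of_RsI (S := fun _ => False)
    ⟨1, one_pos, fun g hg _ => gt_topI H.hyY H.hdef hS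
      (open_top_of hS H.hyY fun h _ hz hp => hT E ρ σ ι α a b c q H.hyY H.hdef h hz hp)
      hg⟩).noIndex fun _ h => h

end Vale.Agent.P011.D4W.H7
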