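import Vale.Agent.P011.D4W.H359.Short
import Vale.Agent.P011.D4W.H7.Part

/-!
Block D4W: the short elements.
-/

open Module NumberField

namespace Vale.Agent.P011.D4W.H7

open Vale.Agent.P011.MPQ Vale.Agent.P011.D4

/-- The short elements. -/
theorem shortAll (k L : Type) [Field k] [NumberField k] [Field L] [NumberField L] [Algebra k L] :
    ShortAll k L :=
  fun _ _ _ _ _ _ _ _ _ _ _ _ _ _ H _ _ hg => H359.short_mem H hg

end Vale.Agent.P011.D4W.H7
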