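import Vale.Agent.P011.D4W.H7.End
import Vale.Agent.P011.D4W.H7.ShortAll
import Vale.Agent.P011.D4W.H7.Swap

/-!
Block D4W: assembly up to the frame `(i, l, j)`.
-/

open Module NumberField

namespace Vale.Agent.P011.D4W.H7

open Vale.Agent.P011.MPQ Vale.Agent.P011.D4 Vale.Agent.P011.D4T Vale.Agent.P011.D4I
  Vale.Agent.P011.D4H

/-- The trialitarian groups of noncyclic cubic extensions have no proper subgroup of finite
index, from the congruence of the centralisers for the frame `(i, l, j)`. -/
theorem ti_noIndex_of_swap {k L E : Type} [Field k] [NumberField k] [Field L] [NumberField L]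
    [Field E] [Algebra k L] [Algebra k E] [Algebra L E] [IsScalarTower k L E] (hsw : LeSwap k L)
    {ρ σ ι : E ≃ₐ[k] E} {α : E} {a b c : kˣ} {q : Lˣ} (H : IsDataIR ρ σ ι α a b c q) :
    NoIndex (TI ρ σ ι α (algebraMap L E (q : L)) a b c) :=
  ti_noIndex (shortAll k L) (le_of_swap hsw) H

end Vale.Agent.P011.D4W.H7
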