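import Vale.Agent.P011.D4W.H7.Disc
import Vale.Agent.P011.D4Y.H63.MixB
import Vale.Agent.P011.D4Y.H63.Mix
import Vale.Agent.P011.D4.NTS

/-!
Block D4W: the elements `s⁻¹ z(x₀, x; s²)` with `nrd x₀ = nrd x = s`, without a condition at the
primes of even local degree.
-/

open NumberField Topology

set_option linter.unusedSectionVars false

namespace Vale.Agent.P011.D4W.H7

open Vale.Agent.P011.Arith Vale.Agent.P011.MPQ Vale.Agent.P011.D4 Vale.Agent.P011.D4.Oct
  Vale.Agent.P011.E6 Vale.Agent.P011.D4X Vale.Agent.P011.D4Y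

variable {k L E : Type} [Field k] [NumberField k] [Field L] [NumberField L] [Field E]
  [Algebra k L] [Algebra k E] [Algebra L E]
  [IsScalarTower k L E] [NeZero (2 : E)] {ρ σ ι : E ≃ₐ[k] E} {α : E}
  {a b c : kˣ} {q : Lˣ} (H : HyI ρ σ ι α a b c q)

include H

/-- A quadratic polynomial over `k` with constant term `s` whose discriminant is good and is not
a square in `E`. -/
theorem exists_goodu {s : kˣ} (hs1 : s ≠ 1) (hs : ∀ τ : k →+* ℝ, τ a < 0 → 0 < τ s)
    (hsG : GoodS a q s) :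
    ∃ (u : k) (D : kˣ), (D : k) = u ^ 2 - 4 * s ∧ GoodD a b q (D : k) ∧
      (∀ τ : k →+* ℝ, τ D < 0 ↔ τ a < 0) ∧ ∀ x : E, x * x ≠ algebraMap k E (D : k) := by
  obtain ⟨t, ht, hav⟩ := H.exists_avoid
  obtain ⟨u, D, h1, h2, h4, h5⟩ := exists_gooduW H.h3 (a := a) (b := b) (q := q) t ht hs1 hs hsG
  obtain ⟨hD0, ⟨w0, hw0, hw0'⟩, -⟩ := id h2
  exact ⟨u, D, h1, h2, h4, hav D (not_sq_of_aniso H.hdiv.aniso hD0 hw0 hw0') h5⟩

/-- The common norms are positive. -/
theorem norm_pos {x0 : Qt a b} {x : Qt (up L a) (q * up L b)} {s : kˣ} (h0 : nrd x0 = s)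
    (h1 : nrd x = algebraMap k L (s : k)) (τ : k →+* ℝ) (hτ : τ a < 0) : 0 < τ s := by
  have hs0 : τ (s : k) ≠ 0 := (map_ne_zero τ).2 s.ne_zero
  by_cases hb' : 0 < τ b
  · obtain ⟨w, hw, hqw⟩ := H.exists_neg hτ hb'
    have hwk : ∀ t : k, w (algebraMap k L t) = τ t := fun t => by rw [← hw]; rfl
    rw [← hwk, ← h1]
    refine lt_of_le_of_ne ?_ (fun h0' => hs0 ?_)
    · have e1 : ((up L a : Lˣ) : L) = algebraMap k L (a : k) := rfl
      have e2 : ((q * up L b : Lˣ) : L) = (q : L) * algebraMap k L (b : k) := rfl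
      simp only [nrd, e1, e2, map_sub, map_add, map_mul, map_pow, hwk]
      have hqb : w (q : L) * τ b < 0 := mul_neg_of_neg_of_pos hqw hb'
      nlinarith [sq_nonneg (w x.re), mul_nonneg (neg_nonneg.2 hτ.le) (sq_nonneg (w x.imI)),
        mul_nonneg (neg_nonneg.2 hqb.le) (sq_nonneg (w x.imJ)),
        mul_nonneg (mul_nonneg (neg_nonneg.2 hτ.le) (neg_nonneg.2 hqb.le))
          (sq_nonneg (w x.imK))]
    · rw [← hwk, ← h1, ← h0']
  have hb' : τ b < 0 := lt_of_le_of_ne (not_lt.1 hb') ((map_ne_zero τ).2 b.ne_zero)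
  refine lt_of_le_of_ne ?_ (Ne.symm hs0)
  rw [← h0]
  simp only [nrd, map_sub, map_add, map_mul, map_pow]
  nlinarith [sq_nonneg (τ x0.re), mul_nonneg (neg_nonneg.2 hτ.le) (sq_nonneg (τ x0.imI)),
    mul_nonneg (neg_nonneg.2 hb'.le) (sq_nonneg (τ x0.imJ)),
    mul_nonneg (mul_nonneg (neg_nonneg.2 hτ.le) (neg_nonneg.2 hb'.le))
      (sq_nonneg (τ x0.imK))]

/-- Products of long and short elements. -/
theorem exists_LS
    (hshort : ∀ (x : SL1 (up L a) (q * up L b)) (g : OctL E a b c ≃ₗ[E] OctL E a b c),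
      (∀ y : OctL E a b c, g y = shortFun ρ (psiL α q ((x : (Qt (up L a) (q * up L b))ˣ) :
        Qt (up L a) (q * up L b))) y) → g ∈ RsI ρ σ ι α a b c q)
    {g0 : Qt a b} {g1 : Qt (up L a) (q * up L b)} (hg0 : nrd g0 = 1) (hg1 : nrd g1 = 1) :
    ∃ h ∈ RsI ρ σ ι α a b c q, ∀ y, h y = zFun ρ (psiL α q g1) (qup E g0) 1 y := by
  obtain ⟨y0, hy0⟩ := exists_SL1 hg0
  obtain ⟨y1, hy1⟩ := exists_SL1 hg1
  obtain ⟨l, hl, hl'⟩ := exists_longI H y0
  obtain ⟨m, hm, hm'⟩ := exists_shortI H y1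
  have hlR : l ∈ RsI ρ σ ι α a b c q := autI_mem H hl (by
    rw [hl']
    ext1
    · rfl
    · change _ * (0 : Qt (up E a) (up E b)) = 0
      rw [mul_zero])
  refine ⟨l * m, (RsI ρ σ ι α a b c q).mul_mem hlR (hshort y1 m hm'), fun y => ?_⟩
  rw [LinearEquiv.mul_apply, hl', hm', hy0, hy1]
  ext1
  · rfl
  · change _ * (_ * _) = (1 : E) • (_ * _ * _)
    rw [one_smul, mul_assoc]

/-- The elements with `nrd x₀ = nrd x = s`, for good `s`. -/
theorem mix_good
    (hshort : ∀ (x : SL1 (up L a) (q * up L b)) (g : OctL E a b c ≃ₗ[E] OctL E a b c),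
      (∀ y : OctL E a b c, g y = shortFun ρ (psiL α q ((x : (Qt (up L a) (q * up L b))ˣ) :
        Qt (up L a) (q * up L b))) y) → g ∈ RsI ρ σ ι α a b c q)
    {x0 : Qt a b} {x : Qt (up L a) (q * up L b)} {s : kˣ} (hsG : GoodS a q s) (h0 : nrd x0 = s)
    (h1 : nrd x = algebraMap k L (s : k)) {g : OctL E a b c ≃ₗ[E] OctL E a b c}
    (hg : ∀ y : OctL E a b c, g y =
      (algebraMap k E (s : k))⁻¹ • zFI ρ α q x0 x (s ^ 2) y) : g ∈ RsI ρ σ ι α a b c q := by
  by_cases hs1 : s = 1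
  · subst hs1
    rw [Units.val_one] at h0 h1
    rw [map_one] at h1
    obtain ⟨h, hh, hh'⟩ := exists_LS H hshort h0 h1
    have e1 : g = h := by
      apply LinearEquiv.ext
      intro y
      rw [hg, hh', Mix.zFI_eq x0 (s := 1) (by rw [h1, Units.val_one, map_one]), Units.val_one,
        map_one, inv_one, one_smul]
    rw [e1]
    exact hh
  · obtain ⟨u, D, hD, hgood, hsign, hns⟩ := exists_goodu H hs1 (norm_pos H h0 h1) hsG
    obtain ⟨-, ⟨w, hw0, hw⟩, -, ⟨p, hp0, hp⟩, -⟩ := id hgood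
    have hNw := nrd_half hw0 hw hD
    have hNp := nrd_half (u := algebraMap k L u) (s := algebraMap k L (s : k)) hp0 hp (by
      rw [hD, map_sub, map_mul, map_pow, map_ofNat])
    set x0' : Qt a b := (1 / 2 : k) • (u • 1 + w) with hx0'
    set x' : Qt (up L a) (q * up L b) := (1 / 2 : L) • (algebraMap k L u • 1 + p) with hx'
    have hsk : (s : k) ≠ 0 := s.ne_zero
    have hsL : algebraMap k L (s : k) ≠ 0 := (map_ne_zero _).2 hsk
    have f0 : x0' * ((s : k)⁻¹ • (star x0' * x0)) = x0 := by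
      rw [mul_smul_comm, ← mul_assoc, q_mul_star, hNw, smul_mul_assoc, one_mul, smul_smul,
        inv_mul_cancel₀ hsk, one_smul]
    have f1 : x' * ((algebraMap k L (s : k))⁻¹ • (star x' * x)) = x := by
      rw [mul_smul_comm, ← mul_assoc, q_mul_star, hNp, smul_mul_assoc, one_mul, smul_smul,
        inv_mul_cancel₀ hsL, one_smul]
    have n0 : nrd ((s : k)⁻¹ • (star x0' * x0)) = 1 := by
      have := congrArg nrd f0
      rw [nrd_mul, hNw, h0] at this
      exact mul_left_cancel₀ hsk (by rw [this, mul_one])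
    have n1 : nrd ((algebraMap k L (s : k))⁻¹ • (star x' * x)) = 1 := by
      have := congrArg nrd f1
      rw [nrd_mul, hNp, h1] at this
      exact mul_left_cancel₀ hsL (by rw [this, mul_one])
    obtain ⟨h, hh, hh'⟩ := exists_LS H hshort n0 n1
    have key : ∀ y, g (h⁻¹ y) = (algebraMap k E (s : k))⁻¹ • zFI ρ α q x0' x' (s ^ 2) y := by
      intro y
      rw [hg, Mix.zFI_eq x0 h1, Mix.zFI_eq x0' hNp]
      congr 1
      have e1 : y = h (h⁻¹ y) := by
        rw [← LinearEquiv.mul_apply, mul_inv_cancel]; rfl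
      conv_rhs => rw [e1, hh', zFun_mul, ← H.psiL_mul, ← qup_mul, f0, f1, one_mul]
    have h5 : g * h⁻¹ ∈ RsI ρ σ ι α a b c q :=
      H63.mid_mem H s u D w p hD hgood hns hw0 hw hp0 hp _ key
    have e2 : g = g * h⁻¹ * h := by group
    rw [e2]
    exact (RsI ρ σ ι α a b c q).mul_mem h5 hh

/-- The elements `s⁻¹ z(x₀, x; s²)`, as linear maps. -/
theorem exists_mixI {x0 : Qt a b} {x : Qt (up L a) (q * up L b)} {s : kˣ} (h0 : nrd x0 = s)
    (h1 : nrd x = algebraMap k L (s : k)) : ∃ g : OctL E a b c ≃ₗ[E] OctL E a b c,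
      ∀ y : OctL E a b c, g y = (algebraMap k E (s : k))⁻¹ • zFI ρ α q x0 x (s ^ 2) y := by
  obtain ⟨z0, -, -, hz0⟩ := exists_zI (c := c) H x0 x (s ^ 2) (by
      rw [h0, h1, ← IsScalarTower.algebraMap_apply, ρ.commutes, ρ.commutes,
        Units.val_pow_eq_pow_val, map_pow, map_pow]
      ring)
  have hs : (algebraMap k E (s : k))⁻¹ ≠ 0 := inv_ne_zero ((map_ne_zero _).2 s.ne_zero)
  refine ⟨z0.1.trans (LinearEquiv.smulOfNeZero E _ _ hs), fun y => ?_⟩
  rw [← hz0]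
  rfl

/-- **The mixed elements**: the elements with `nrd x₀ = nrd x ∈ k*` (normalised by `κ = 1`), from
the short elements. -/
theorem mix_mem_of
    (hshort : ∀ (x : SL1 (up L a) (q * up L b)) (g : OctL E a b c ≃ₗ[E] OctL E a b c),
      (∀ y : OctL E a b c, g y = shortFun ρ (psiL α q ((x : (Qt (up L a) (q * up L b))ˣ) :
        Qt (up L a) (q * up L b))) y) → g ∈ RsI ρ σ ι α a b c q)
    {x0 : Qt a b} {x : Qt (up L a) (q * up L b)} {s : kˣ} (h0 : nrd x0 = s)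
    (h1 : nrd x = algebraMap k L (s : k)) {g : OctL E a b c ≃ₗ[E] OctL E a b c}
    (hg : ∀ y : OctL E a b c, g y =
      (algebraMap k E (s : k))⁻¹ • zFI ρ α q x0 x (s ^ 2) y) : g ∈ RsI ρ σ ι α a b c q := by
  obtain ⟨s1, s2, hs, hG1, hG2, hpos⟩ := exists_fac H.h3 a q s
  obtain ⟨y0, hy0⟩ := exists_nrd (a := a) (b := b) s1 fun φ _ _ => hpos φ
  obtain ⟨y1, hy1⟩ := exists_nrd (a := up L a) (b := q * up L b) (up L s1)
    fun φ _ _ => hpos (φ.comp (algebraMap k L))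
  have hy1' : nrd y1 = algebraMap k L (s1 : k) := hy1
  have hs1 : (s1 : k) ≠ 0 := s1.ne_zero
  have hs1L : algebraMap k L (s1 : k) ≠ 0 := (map_ne_zero _).2 hs1
  have hs1E : algebraMap k E (s1 : k) ≠ 0 := (map_ne_zero _).2 hs1
  obtain ⟨z0, hz0⟩ : ∃ z0 : Qt a b, z0 = (s1 : k)⁻¹ • (star y0 * x0) := ⟨_, rfl⟩
  obtain ⟨z1, hz1⟩ : ∃ z1 : Qt (up L a) (q * up L b), z1 =
    (algebraMap k L (s1 : k))⁻¹ • (star y1 * x) := ⟨_, rfl⟩
  have f0 : y0 * z0 = x0 := by
    rw [hz0, mul_smul_comm, ← mul_assoc, q_mul_star, hy0, smul_mul_assoc, one_mul, smul_smul,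
      inv_mul_cancel₀ hs1, one_smul]
  have f1 : y1 * z1 = x := by
    rw [hz1, mul_smul_comm, ← mul_assoc, q_mul_star, hy1', smul_mul_assoc, one_mul, smul_smul,
      inv_mul_cancel₀ hs1L, one_smul]
  have n0 : nrd z0 = s2 := by
    have h2 := congrArg nrd f0
    rw [nrd_mul, hy0, h0, hs, Units.val_mul] at h2
    exact mul_left_cancel₀ hs1 h2
  have n1 : nrd z1 = algebraMap k L (s2 : k) := by
    have h2 := congrArg nrd f1
    rw [nrd_mul, hy1', h1, hs, Units.val_mul, map_mul] at h2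
    exact mul_left_cancel₀ hs1L h2
  obtain ⟨g1, hg1⟩ := exists_mixI (c := c) H hy0 hy1'
  obtain ⟨g2, hg2⟩ := exists_mixI (c := c) H n0 n1
  have m1 := mix_good H hshort hG1 hy0 hy1' hg1
  have m2 := mix_good H hshort hG2 n0 n1 hg2
  have e : g = g1 * g2 := by
    apply LinearEquiv.ext
    intro y
    have h3 : algebraMap k E (s : k) = algebraMap k E (s1 : k) * algebraMap k E (s2 : k) := by
      rw [hs, Units.val_mul, map_mul]
    rw [LinearEquiv.mul_apply, hg, hg1, hg2, Mix.zFI_eq x0 h1, Mix.zFI_eq y0 hy1',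
      Mix.zFI_eq z0 n1, zFun_smul, zFun_mul, ← H.psiL_mul, ← qup_mul, f0, f1, one_mul, smul_smul,
      h3, mul_inv]
  rw [e]
  exact (RsI ρ σ ι α a b c q).mul_mem m1 m2

end Vale.Agent.P011.D4W.H7
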